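import Mathlib.Algebra.AffineMonoid.UniqueSums
import Mathlib.Algebra.MonoidAlgebra.NoZeroDivisors
import Mathlib.LinearAlgebra.Matrix.Nondegenerate
import Mathlib.LinearAlgebra.Matrix.ToLinearEquiv
import Mathlib.LinearAlgebra.Basis.VectorSpace
import Mathlib.LinearAlgebra.Finsupp.LinearCombination

/-! # P246: linear independence over a group ring from linear independence after augmentation -/

namespace Vale.Agent.P246.Dis.H514

section Aug

/-- Vectors over a domain `A` which become linearly independent under a split homomorphism to a
field are linearly independent. -/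
theorem lin_of_aug {A k : Type*} [CommRing A] [IsDomain A] [Field k] (s : k →+* A) (ε : A →+* k)
    (hε : ∀ c, ε (s c) = c) {J X : Type*} (v : J → X →₀ A)
    (h : LinearIndependent k fun j => (v j).mapRange ε (map_zero ε)) :
    LinearIndependent A v := by
  classical
  obtain ⟨L, hL⟩ := LinearMap.exists_leftInverse_of_injective _
    (LinearMap.ker_eq_bot.2 h)
  have hL' : ∀ j, L ((v j).mapRange ε (map_zero ε)) = Finsupp.single j 1 := fun j => by
    have := congrArg (fun f => f (Finsupp.single j 1)) hL
    simpa using this
  rw [linearIndependent_iff']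
  intro S g hg
  let Λ : J → (X →₀ A) →ₗ[A] A := fun i =>
    Finsupp.linearCombination A fun x => s (L (Finsupp.single x 1) i)
  have hΛ : ∀ i w, ε (Λ i w) = L (w.mapRange ε (map_zero ε)) i := by
    intro i w
    induction w using Finsupp.induction_linear with
    | zero => simp
    | add a b ha hb =>
      rw [map_add, map_add, ha, hb, Finsupp.mapRange_add (fun _ _ => map_add ε _ _), map_add,
        Finsupp.add_apply]
    | single x a =>
      rw [Finsupp.mapRange_single]
      simp only [Λ, Finsupp.linearCombination_single, smul_eq_mul, map_mul, hε]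
      rw [← mul_one (ε a), ← smul_eq_mul (ε a) 1, ← Finsupp.smul_single, map_smul,
        Finsupp.smul_apply, smul_eq_mul, smul_eq_mul, mul_one]
  let M : Matrix S S A := fun i j => Λ i (v j)
  have hM : M.det ≠ 0 := by
    intro h0
    have h1 : (ε.mapMatrix M).det = 0 := by rw [← RingHom.map_det, h0, map_zero]
    have h2 : ε.mapMatrix M = 1 := by
      ext i j
      rw [RingHom.mapMatrix_apply, Matrix.map_apply]
      change ε (Λ i (v j)) = _
      rw [hΛ, hL', Matrix.one_apply, Finsupp.single_apply]
      by_cases hij : i = j
      · rw [if_pos hij, if_pos (congrArg Subtype.val hij.symm)]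
      · rw [if_neg hij, if_neg fun h => hij (Subtype.ext h.symm)]
    rw [h2, Matrix.det_one] at h1
    exact one_ne_zero h1
  have hz : M.mulVec (fun j : S => g j) = 0 := by
    funext i
    have h1 := congrArg (Λ i) hg
    rw [map_sum, map_zero] at h1
    rw [Pi.zero_apply, ← h1, ← Finset.sum_coe_sort]
    refine Finset.sum_congr rfl fun j _ => ?_
    rw [map_smul, smul_eq_mul, mul_comm]
  have h3 := Matrix.eq_zero_of_mulVec_eq_zero hM hz
  intro i hi
  exact congrFun h3 ⟨i, hi⟩

end Aug

section UP

variable {T : Type*} [CommGroup T] [IsMulTorsionFree T]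

/-- torsion-free abelian groups have unique products -/
theorem uniqueProds_of_torsionFree : UniqueProds T where
  uniqueMul_of_nonempty {A B} hA hB := by
    classical
    let H : Subgroup T := Subgroup.closure ((A ∪ B : Finset T) : Set T)
    have : Group.FG H := Group.closure_finset_fg _
    have : Monoid.FG H := Group.fg_iff_monoid_fg.1 inferInstance
    have : IsMulTorsionFree H := Function.Injective.isMulTorsionFree H.subtype H.subtype_injective
    have hAH : ∀ a ∈ A, a ∈ H := fun a ha => Subgroup.subset_closure (by simp [ha])
    have hBH : ∀ a ∈ B, a ∈ H := fun a ha => Subgroup.subset_closure (by simp [ha])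
    let A' : Finset H := A.subtype (· ∈ H)
    let B' : Finset H := B.subtype (· ∈ H)
    obtain ⟨a, ha⟩ := hA
    obtain ⟨b, hb⟩ := hB
    have hA' : A'.Nonempty := ⟨⟨a, hAH a ha⟩, by simp [A', ha]⟩
    have hB' : B'.Nonempty := ⟨⟨b, hBH b hb⟩, by simp [B', hb]⟩
    obtain ⟨a0, ha0, b0, hb0, h⟩ := UniqueProds.uniqueMul_of_nonempty hA' hB'
    refine ⟨a0, by simpa [A'] using ha0, b0, by simpa [B'] using hb0, ?_⟩
    intro x y hx hy hxy
    have := h (a := ⟨x, hAH x hx⟩) (b := ⟨y, hBH y hy⟩) (by simpa [A'] using hx)
      (by simpa [B'] using hy) (Subtype.ext hxy)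
    exact ⟨congrArg Subtype.val this.1, congrArg Subtype.val this.2⟩

/-- the group ring of a torsion-free abelian group over a field is a domain -/
theorem isDomain_of_torsionFree {k : Type*} [Field k] : IsDomain (MonoidAlgebra k T) := by
  have := uniqueProds_of_torsionFree (T := T)
  infer_instance

/-- the augmentation -/
noncomputable def aug (k : Type*) [Field k] (T : Type*) [CommGroup T] : MonoidAlgebra k T →+* k :=
  (MonoidAlgebra.lift k k T 1 : MonoidAlgebra k T →ₐ[k] k).toRingHom

theorem aug_single (k : Type*) [Field k] (T : Type*) [CommGroup T] (t : T) (c : k) :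
    aug k T (MonoidAlgebra.single t c) = c := by
  simp [aug]

/-- B1: vectors over the group ring of a torsion-free abelian group are linearly independent if
their augmentations are. -/
theorem lin_of_aug_group {k : Type*} [Field k] {J X : Type*} (v : J → X →₀ MonoidAlgebra k T)
    (h : LinearIndependent k fun j => (v j).mapRange (aug k T) (map_zero _)) :
    LinearIndependent (MonoidAlgebra k T) v := by
  have := isDomain_of_torsionFree (T := T) (k := k)
  exact lin_of_aug (algebraMap k (MonoidAlgebra k T)) (aug k T) (fun c => by simp [aug]) v h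

end UP

end Vale.Agent.P246.Dis.H514
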