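import Vale.Agent.P246.Dis.H514.Aug
import Mathlib.Algebra.FreeAbelianGroup.Finsupp
import Mathlib.GroupTheory.FreeGroup.NielsenSchreier
import Mathlib.GroupTheory.Solvable
import Mathlib.Data.ZMod.Basic
import Mathlib.Algebra.Module.ZMod
import Mathlib.Algebra.Field.ZMod

/-! # P246: exponent vectors, the Fox crossed homomorphism with values in a group ring over a
field -/

namespace Vale.Agent.P246.Dis.H514

section Exp

/-- the exponent vector mod `p` -/
noncomputable def expv (p : ℕ) {E : Type} : FreeGroup E →* Multiplicative (E →₀ ZMod p) :=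
  FreeGroup.lift fun e => Multiplicative.ofAdd (Finsupp.single e 1)

/-- the exponent vectors are linearly independent modulo every prime -/
def ExpIndep {E ι : Type} (C : ι → FreeGroup E) : Prop :=
  ∀ p : ℕ, p.Prime → LinearIndependent (ZMod p) fun i => (expv p (C i)).toAdd

/-- the integral exponent vector -/
noncomputable def expz {E : Type} : FreeGroup E →* Multiplicative (E →₀ ℤ) :=
  FreeGroup.lift fun e => Multiplicative.ofAdd (Finsupp.single e 1)

theorem expv_of (p : ℕ) {E : Type} (e : E) :
    (expv p (FreeGroup.of e)).toAdd = Finsupp.single e 1 := by simp [expv]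

theorem expz_of {E : Type} (e : E) :
    (expz (FreeGroup.of e)).toAdd = Finsupp.single e 1 := by simp [expz]

theorem expv_apply (p : ℕ) {E : Type} (w : FreeGroup E) (e : E) :
    (expv p w).toAdd e = (((expz w).toAdd e : ℤ) : ZMod p) := by
  classical
  induction w using FreeGroup.induction_on with
  | C1 => simp
  | of x =>
    rw [expv_of, expz_of, Finsupp.single_apply, Finsupp.single_apply]
    split_ifs <;> simp
  | inv_of x h => rw [(expv p).map_inv, expz.map_inv, toAdd_inv, toAdd_inv, Finsupp.neg_apply,
      Finsupp.neg_apply, h, Int.cast_neg]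
  | mul x y hx hy => rw [(expv p).map_mul, expz.map_mul, toAdd_mul, toAdd_mul, Finsupp.add_apply,
      Finsupp.add_apply, hx, hy, Int.cast_add]

theorem expz_eq {E : Type} (w : FreeGroup E) :
    (expz w).toAdd = FreeAbelianGroup.toFinsupp (Additive.ofMul (Abelianization.of w)) := by
  have h : (expz : FreeGroup E →* Multiplicative (E →₀ ℤ)) =
      (AddMonoidHom.toMultiplicativeRight (FreeAbelianGroup.toFinsupp (X := E))).comp
        Abelianization.of := by
    apply FreeGroup.ext_hom
    intro e
    apply Multiplicative.toAdd.injective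
    rw [expz_of]
    exact (FreeAbelianGroup.toFinsupp_of e).symm
  rw [h]
  rfl

theorem mem_commutator_of_expz {E : Type} {w : FreeGroup E} (h : (expz w).toAdd = 0) :
    w ∈ commutator (FreeGroup E) := by
  rw [expz_eq] at h
  have h1 : (Additive.ofMul (Abelianization.of w) : FreeAbelianGroup E) = 0 :=
    (FreeAbelianGroup.equivFinsupp E).injective (h.trans (map_zero _).symm)
  rw [← Abelianization.ker_of, MonoidHom.mem_ker]
  exact h1

end Exp

section Fox

variable {E T k : Type} [CommGroup T] [Field k] (π : FreeGroup E →* T)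

/-- the affine map of a generator -/
noncomputable def foxGen (e : E) : Equiv.Perm (E →₀ MonoidAlgebra k T) where
  toFun x := (MonoidAlgebra.single (π (.of e)) 1 : MonoidAlgebra k T) • x + Finsupp.single e 1
  invFun y := (MonoidAlgebra.single (π (.of e))⁻¹ 1 : MonoidAlgebra k T) • (y - Finsupp.single e 1)
  left_inv x := by
    simp only
    rw [add_sub_cancel_right, smul_smul, MonoidAlgebra.single_mul_single, inv_mul_cancel, one_mul]
    exact one_smul _ x
  right_inv y := by
    simp only
    rw [smul_smul, MonoidAlgebra.single_mul_single, mul_inv_cancel, one_mul]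
    erw [one_smul]
    rw [sub_add_cancel]

/-- the affine maps -/
noncomputable def foxPerm : FreeGroup E →* Equiv.Perm (E →₀ MonoidAlgebra k T) :=
  FreeGroup.lift (foxGen π)

/-- the Fox crossed homomorphism -/
noncomputable def fox (g : FreeGroup E) : E →₀ MonoidAlgebra k T := foxPerm π g 0

theorem foxPerm_apply (g : FreeGroup E) (x : E →₀ MonoidAlgebra k T) :
    foxPerm π g x = (MonoidAlgebra.single (π g) 1 : MonoidAlgebra k T) • x + fox π g := by
  induction g using FreeGroup.induction_on generalizing x with
  | C1 =>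
    rw [fox, map_one, map_one]
    erw [one_smul]
    simp
  | of e =>
    rw [fox, foxPerm, FreeGroup.lift_apply_of]
    simp [foxGen]
  | inv_of e h =>
    rw [fox, map_inv, map_inv, Equiv.Perm.inv_def, Equiv.symm_apply_eq, foxPerm,
      FreeGroup.lift_apply_of]
    simp [foxGen, smul_smul, MonoidAlgebra.single_mul_single]
    erw [one_smul]
    rw [← MonoidAlgebra.one_def, neg_add_cancel_right]
  | mul a b ha hb =>
    rw [fox, map_mul, map_mul, Equiv.Perm.mul_apply, Equiv.Perm.mul_apply, ha, hb, ha, hb 0,
      smul_zero, zero_add, smul_add, smul_smul, MonoidAlgebra.single_mul_single, one_mul, add_assoc]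

theorem fox_mul (a b : FreeGroup E) : (fox π (a * b) : E →₀ MonoidAlgebra k T) =
    fox π a + (MonoidAlgebra.single (π a) 1 : MonoidAlgebra k T) • fox π b := by
  rw [fox, map_mul, Equiv.Perm.mul_apply, foxPerm_apply, add_comm, fox, fox]

theorem fox_one : (fox π 1 : E →₀ MonoidAlgebra k T) = 0 := by
  rw [fox, map_one]; rfl

theorem fox_of (e : E) : (fox π (.of e) : E →₀ MonoidAlgebra k T) = Finsupp.single e 1 := by
  simp [fox, foxPerm, foxGen]

theorem fox_mul_of_ker {a b : FreeGroup E} (ha : π a = 1) :
    (fox π (a * b) : E →₀ MonoidAlgebra k T) = fox π a + fox π b := by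
  rw [fox_mul, ha]
  erw [one_smul]

theorem fox_conj (s : FreeGroup E) {c : FreeGroup E} (hc : π c = 1) :
    (fox π (s * c * s⁻¹) : E →₀ MonoidAlgebra k T) =
      (MonoidAlgebra.single (π s) 1 : MonoidAlgebra k T) • fox π c := by
  have h0 : (fox π (s * s⁻¹) : E →₀ MonoidAlgebra k T) = 0 := by
    rw [mul_inv_cancel, fox_one]
  rw [fox_mul] at h0
  rw [fox_mul, fox_mul, map_mul, hc, mul_one, add_right_comm, h0, zero_add]

/-- the augmentation of the Fox derivative is the exponent vector -/
theorem aug_fox (p : ℕ) [Fact p.Prime] (g : FreeGroup E) :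
    (fox π g : E →₀ MonoidAlgebra (ZMod p) T).mapRange (aug (ZMod p) T) (map_zero _) =
      (expv p g).toAdd := by
  have hm : ∀ (c : MonoidAlgebra (ZMod p) T) (x : E →₀ MonoidAlgebra (ZMod p) T),
      (c • x).mapRange (aug (ZMod p) T) (map_zero _) =
        (aug (ZMod p) T c) • x.mapRange (aug (ZMod p) T) (map_zero _) := by
    intro c x
    ext e
    simp
  induction g using FreeGroup.induction_on with
  | C1 => rw [fox_one]; simp
  | of e => rw [fox_of, expv_of, Finsupp.mapRange_single, map_one]
  | inv_of e h =>
    have h0 : (fox π (.of e * (.of e)⁻¹) : E →₀ MonoidAlgebra (ZMod p) T) = 0 := by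
      rw [mul_inv_cancel, fox_one]
    rw [fox_mul] at h0
    have h1 := congrArg (fun x : E →₀ MonoidAlgebra (ZMod p) T =>
      x.mapRange (aug (ZMod p) T) (map_zero _)) h0
    rw [Finsupp.mapRange_add (fun _ _ => map_add _ _ _), hm, aug_single, one_smul, h,
      Finsupp.mapRange_zero] at h1
    rw [map_inv, toAdd_inv]
    exact (neg_eq_of_add_eq_zero_right h1).symm
  | mul a b ha hb =>
    rw [fox_mul, Finsupp.mapRange_add (fun _ _ => map_add _ _ _), hm, aug_single, one_smul, ha, hb,
      map_mul, toAdd_mul]

end Fox

end Vale.Agent.P246.Dis.H514
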