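import Vale.Agent.P246.Dis.H514.Fox

/-! # P246: torsion elements of a group whose relators are independent modulo every prime -/

namespace Vale.Agent.P246.Dis.H514

section Tf

variable {E ι : Type} (C : ι → FreeGroup E)

/-- `R [F, F]` -/
def F1 : Subgroup (FreeGroup E) := Subgroup.normalClosure (Set.range C) ⊔ commutator (FreeGroup E)

instance : (F1 C).Normal := by unfold F1; infer_instance

theorem rel_mem (i : ι) : C i ∈ F1 C :=
  Subgroup.mem_sup_left (Subgroup.subset_normalClosure ⟨i, rfl⟩)

/-- the span of the exponent vectors -/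
noncomputable def spn : Submodule ℤ (E →₀ ℤ) :=
  Submodule.span ℤ (Set.range fun i => (expz (C i)).toAdd)

theorem mem_spn_of_mem {x : FreeGroup E} (hx : x ∈ F1 C) : (expz x).toAdd ∈ spn C := by
  let K : Subgroup (FreeGroup E) := (AddSubgroup.toSubgroup (spn C).toAddSubgroup).comap expz
  have hK : F1 C ≤ K := by
    refine sup_le ?_ ?_
    · refine Subgroup.normalClosure_le_normal ?_
      rintro _ ⟨i, rfl⟩
      exact Submodule.subset_span ⟨i, rfl⟩
    · have h1 : commutator (FreeGroup E) ≤ (expz (E := E)).ker := Abelianization.commutator_subset_ker _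
      intro a ha
      change (expz a).toAdd ∈ spn C
      rw [MonoidHom.mem_ker.1 (h1 ha)]
      exact (spn C).zero_mem
  exact hK hx

theorem mem_of_mem_spn {x : FreeGroup E} (hx : (expz x).toAdd ∈ spn C) : x ∈ F1 C := by
  have h1 : ∀ u ∈ spn C, ∃ r ∈ Subgroup.normalClosure (Set.range C), (expz r).toAdd = u := by
    intro u hu
    induction hu using Submodule.span_induction with
    | mem u hu =>
      obtain ⟨i, rfl⟩ := hu
      exact ⟨C i, Subgroup.subset_normalClosure ⟨i, rfl⟩, rfl⟩
    | zero => exact ⟨1, one_mem _, by rw [expz.map_one]; rfl⟩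
    | add u v _ _ hu hv =>
      obtain ⟨r, hr, rfl⟩ := hu
      obtain ⟨s, hs, rfl⟩ := hv
      exact ⟨r * s, mul_mem hr hs, by rw [expz.map_mul]; rfl⟩
    | smul a u _ hu =>
      obtain ⟨r, hr, rfl⟩ := hu
      exact ⟨r ^ a, zpow_mem hr a, by rw [expz.map_zpow]; rfl⟩
  obtain ⟨r, hr, hrx⟩ := h1 _ hx
  have h2 : r⁻¹ * x ∈ commutator (FreeGroup E) := by
    apply mem_commutator_of_expz
    rw [expz.map_mul, expz.map_inv, toAdd_mul, toAdd_inv, hrx, neg_add_cancel]
  rw [← mul_inv_cancel_left r x]
  exact mul_mem (Subgroup.mem_sup_left hr) (Subgroup.mem_sup_right h2)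

variable {C}

theorem div_prime (h : ExpIndep C) {p : ℕ} (hp : p.Prime) {x : E →₀ ℤ} (hx : p • x ∈ spn C) :
    x ∈ spn C := by
  classical
  have := Fact.mk hp
  obtain ⟨c, hc⟩ := Finsupp.mem_span_range_iff_exists_finsupp.1 hx
  have hce : ∀ e, (c.sum fun i a => a * (expz (C i)).toAdd e) = p * x e := by
    intro e
    have h4 := DFunLike.congr_fun hc e
    rw [Finsupp.smul_apply, nsmul_eq_mul, Finsupp.sum_apply] at h4
    exact h4
  have h2 : ∀ i, (p : ℤ) ∣ c i := by
    have h3 := (linearIndependent_iff.1 (h p hp)) (c.mapRange (fun a : ℤ => (a : ZMod p))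
      Int.cast_zero) (by
        rw [Finsupp.linearCombination_apply, Finsupp.sum_mapRange_index
          (h := fun i a => a • (expv p (C i)).toAdd) (fun i => zero_smul (ZMod p) _)]
        ext e
        have h5 := congrArg (fun a : ℤ => (a : ZMod p)) (hce e)
        simp only [Int.cast_mul, Int.cast_natCast, CharP.cast_eq_zero, zero_mul] at h5
        rw [Finsupp.sum_apply, Finsupp.zero_apply, ← h5, Finsupp.sum, Finsupp.sum, Int.cast_sum]
        refine Finset.sum_congr rfl fun i _ => ?_
        rw [Finsupp.smul_apply, expv_apply, smul_eq_mul, Int.cast_mul])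
    intro i
    have h6 := DFunLike.congr_fun h3 i
    rw [Finsupp.mapRange_apply, Finsupp.zero_apply] at h6
    exact (ZMod.intCast_zmod_eq_zero_iff_dvd _ _).1 h6
  have h7 : x = c.sum fun i a => (a / p) • (expz (C i)).toAdd := by
    have hp0 : (p : ℤ) ≠ 0 := by exact_mod_cast hp.ne_zero
    ext e
    rw [Finsupp.sum_apply]
    apply mul_left_cancel₀ hp0
    rw [← hce e, Finsupp.sum, Finsupp.sum, Finset.mul_sum]
    refine Finset.sum_congr rfl fun i _ => ?_
    obtain ⟨d, hd⟩ := h2 i
    rw [Finsupp.smul_apply, hd, Int.mul_ediv_cancel_left _ hp0, smul_eq_mul, mul_assoc]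
  rw [h7]
  refine Submodule.sum_mem _ fun i _ => Submodule.smul_mem _ _ ?_
  exact Submodule.subset_span ⟨i, rfl⟩

/-- L1 -/
theorem mem_of_pow_mem (h : ExpIndep C) {n : ℕ} (hn : n ≠ 0) {x : FreeGroup E}
    (hx : x ^ n ∈ F1 C) : x ∈ F1 C := by
  have h1 : ∀ n : ℕ, n ≠ 0 → ∀ u : E →₀ ℤ, n • u ∈ spn C → u ∈ spn C := by
    intro n
    induction n using Nat.recOnMul with
    | zero => exact fun h => absurd rfl h
    | one => exact fun _ u hu => by rwa [one_smul] at hu
    | prime p hp => exact fun _ u hu => div_prime h hp hu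
    | mul a b ha hb =>
      intro hab u hu
      rw [mul_smul] at hu
      exact hb (right_ne_zero_of_mul hab) u (ha (left_ne_zero_of_mul hab) _ hu)
  apply mem_of_mem_spn
  apply h1 n hn
  have := mem_spn_of_mem C hx
  rwa [expz.map_pow, toAdd_pow] at this

end Tf

section Step

variable {E ι : Type} (C : ι → FreeGroup E)

/-- the torsion-free quotient -/
abbrev TT : Type := FreeGroup E ⧸ F1 C

noncomputable instance instTT : CommGroup (TT C) :=
  { (inferInstance : Group (TT C)) with
    mul_comm := fun a b => by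
      obtain ⟨a, rfl⟩ := QuotientGroup.mk_surjective a
      obtain ⟨b, rfl⟩ := QuotientGroup.mk_surjective b
      rw [← QuotientGroup.mk_mul, ← QuotientGroup.mk_mul, QuotientGroup.eq]
      refine Subgroup.mem_sup_right ?_
      rw [← Abelianization.ker_of, MonoidHom.mem_ker, map_mul, map_inv, map_mul, map_mul,
        mul_comm (Abelianization.of b), inv_mul_cancel] }

/-- the projection -/
noncomputable def pr : FreeGroup E →* TT C := QuotientGroup.mk' (F1 C)

theorem pr_eq_one {x : FreeGroup E} : pr C x = 1 ↔ x ∈ F1 C := QuotientGroup.eq_one_iff x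

theorem tf {C : ι → FreeGroup E} (h : ExpIndep C) : IsMulTorsionFree (TT C) where
  pow_left_injective n hn a b hab := by
    obtain ⟨a, rfl⟩ := QuotientGroup.mk_surjective a
    obtain ⟨b, rfl⟩ := QuotientGroup.mk_surjective b
    change (QuotientGroup.mk a : TT C) ^ n = (QuotientGroup.mk b : TT C) ^ n at hab
    have h1 : (pr C (a * b⁻¹)) ^ n = 1 := by
      have h2 : (pr C a) ^ n = (pr C b) ^ n := hab
      rw [map_mul, mul_pow, map_inv, inv_pow, h2, mul_inv_cancel]
    rw [← map_pow, pr_eq_one] at h1
    have h3 := mem_of_pow_mem h hn h1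
    rw [← pr_eq_one, map_mul, map_inv, mul_inv_eq_one] at h3
    exact h3

/-- a section -/
noncomputable def sec (τ : TT C) : FreeGroup E := (QuotientGroup.mk_surjective τ).choose

theorem pr_sec (τ : TT C) : pr C (sec C τ) = τ := (QuotientGroup.mk_surjective τ).choose_spec

/-- the new generators -/
abbrev Y1 : Type := IsFreeGroup.Generators (F1 C)

/-- the isomorphism -/
noncomputable def e1 : F1 C ≃* FreeGroup (Y1 C) := IsFreeGroup.toFreeGroup _

/-- the conjugates -/
noncomputable def C0 (q : ι × TT C) : F1 C :=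
  ⟨sec C q.2 * C q.1 * (sec C q.2)⁻¹, (inferInstance : (F1 C).Normal).conj_mem _ (rel_mem C _) _⟩

/-- the new relators -/
noncomputable def C1 (q : ι × TT C) : FreeGroup (Y1 C) := e1 C (C0 C q)

/-- L2, part 1: the new relators are independent -/
theorem indep_step {C : ι → FreeGroup E} (h : ExpIndep C) : ExpIndep (C1 C) := by
  classical
  intro p hp
  have := Fact.mk hp
  have := tf h
  let M := E →₀ MonoidAlgebra (ZMod p) (TT C)
  -- the Fox crossed homomorphism on `F1`
  let D : F1 C →* Multiplicative M :=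
    { toFun := fun x => Multiplicative.ofAdd (fox (pr C) x.1)
      map_one' := by
        change Multiplicative.ofAdd (fox (pr C) 1) = 1
        rw [fox_one]; rfl
      map_mul' := fun x y => by
        change Multiplicative.ofAdd (fox (pr C) (x.1 * y.1)) = _
        rw [fox_mul_of_ker (pr C) ((pr_eq_one C).2 x.2)]
        rfl }
  let ℓ : (Y1 C →₀ ZMod p) →ₗ[ZMod p] M := Finsupp.linearCombination (ZMod p) fun y =>
    (D ((e1 C).symm (FreeGroup.of y))).toAdd
  have hℓ : ∀ w : FreeGroup (Y1 C), ℓ (expv p w).toAdd = (D ((e1 C).symm w)).toAdd := by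
    intro w
    have h1 : (ℓ.toAddMonoidHom.toMultiplicative).comp (expv p) =
        D.comp (e1 C).symm.toMonoidHom := by
      apply FreeGroup.ext_hom
      intro y
      change Multiplicative.ofAdd (ℓ (expv p (FreeGroup.of y)).toAdd) = _
      rw [expv_of]
      simp [ℓ]
    exact congrArg Multiplicative.toAdd (DFunLike.congr_fun h1 w)
  have hD : ∀ q : ι × TT C, ℓ (expv p (C1 C q)).toAdd =
      (MonoidAlgebra.single q.2 1 : MonoidAlgebra (ZMod p) (TT C)) • (fox (pr C) (C q.1) : M) := by
    intro q
    rw [hℓ, C1, MulEquiv.symm_apply_apply]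
    change fox (pr C) (sec C q.2 * C q.1 * (sec C q.2)⁻¹) = _
    rw [fox_conj (pr C) _ ((pr_eq_one C).2 (rel_mem C _)), pr_sec]
  have hv : LinearIndependent (MonoidAlgebra (ZMod p) (TT C)) fun i => (fox (pr C) (C i) : M) := by
    apply lin_of_aug_group
    have h2 := h p hp
    have h3 : (fun i => (fox (pr C) (C i) : M).mapRange (aug (ZMod p) (TT C)) (map_zero _)) =
        fun i => (expv p (C i)).toAdd := funext fun i => aug_fox (pr C) p (C i)
    rw [h3]
    exact h2
  rw [linearIndependent_iff]
  intro a ha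
  clear_value ℓ
  rw [Finsupp.linearCombination_apply] at ha
  have h1 := congrArg ℓ ha
  rw [map_zero, map_finsuppSum] at h1
  let b : ι →₀ MonoidAlgebra (ZMod p) (TT C) := Finsupp.linearCombination (ZMod p)
    (fun q : ι × TT C => Finsupp.single q.1 (MonoidAlgebra.single q.2 1)) a
  have hb : Finsupp.linearCombination (MonoidAlgebra (ZMod p) (TT C))
      (fun i => (fox (pr C) (C i) : M)) b = 0 := by
    rw [← h1]
    simp only [b, Finsupp.linearCombination_apply (ZMod p)]
    rw [map_finsuppSum]
    refine Finsupp.sum_congr fun q _ => ?_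
    rw [Finsupp.smul_single, Finsupp.linearCombination_single, ℓ.map_smul, hD, smul_assoc]
  have hb0 := linearIndependent_iff.1 hv b hb
  have hba : ∀ (a : ι × TT C →₀ ZMod p) (q : ι × TT C), ((Finsupp.linearCombination (ZMod p)
    (fun q : ι × TT C => Finsupp.single q.1 (MonoidAlgebra.single q.2 1 :
      MonoidAlgebra (ZMod p) (TT C))) a) q.1).coeff q.2 = a q := by
    intro a q
    induction a using Finsupp.induction_linear with
    | zero => simp
    | add x y hx hy => rw [map_add, Finsupp.add_apply, MonoidAlgebra.coeff_add, Finsupp.add_apply,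
        hx, hy, Finsupp.add_apply]
    | single x c =>
      rw [Finsupp.linearCombination_single, Finsupp.smul_single, MonoidAlgebra.smul_single,
        smul_eq_mul, mul_one, Finsupp.single_apply, Finsupp.single_apply]
      by_cases h : x = q
      · rw [if_pos h, if_pos (congrArg Prod.fst h), h, MonoidAlgebra.coeff_single,
          Finsupp.single_eq_same]
      · rw [if_neg h]
        split_ifs with h2
        · rw [MonoidAlgebra.coeff_single, Finsupp.single_apply, if_neg]
          exact fun h3 => h (Prod.ext h2 h3)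
        · rfl
  refine Finsupp.ext fun q => ?_
  rw [← hba a q]
  change (b q.1).coeff q.2 = _
  rw [hb0]
  rfl

/-- L2, part 2: the new relators generate the same normal subgroup -/
theorem normalClosure_step {x : FreeGroup E} (hx : x ∈ Subgroup.normalClosure (Set.range C)) :
    ∃ h : x ∈ F1 C, e1 C ⟨x, h⟩ ∈ Subgroup.normalClosure (Set.range (C1 C)) := by
  let K : Subgroup (FreeGroup E) := ((Subgroup.normalClosure (Set.range (C1 C))).comap
    (e1 C).toMonoidHom).map (F1 C).subtype
  have hK : Subgroup.normalClosure (Set.range C) ≤ K := by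
    refine (Subgroup.closure_le K).2 ?_
    intro x hx
    obtain ⟨_, ⟨i, rfl⟩, hc⟩ := Group.mem_conjugatesOfSet_iff.1 hx
    obtain ⟨g, rfl⟩ := isConj_iff.1 hc
    have hf : g * (sec C (pr C g))⁻¹ ∈ F1 C := by
      rw [← pr_eq_one, map_mul, map_inv, pr_sec, mul_inv_cancel]
    refine ⟨⟨_, hf⟩ * C0 C (i, pr C g) * (⟨_, hf⟩ : F1 C)⁻¹, ?_, ?_⟩
    · change e1 C (⟨_, hf⟩ * C0 C (i, pr C g) * (⟨_, hf⟩ : F1 C)⁻¹) ∈
        Subgroup.normalClosure (Set.range (C1 C))
      rw [map_mul, map_mul, map_inv]
      exact Subgroup.normalClosure_normal.conj_mem _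
        (Subgroup.subset_normalClosure (Set.mem_range_self (i, pr C g))) _
    · change (g * (sec C (pr C g))⁻¹) * (sec C (pr C g) * C i * (sec C (pr C g))⁻¹) *
        (g * (sec C (pr C g))⁻¹)⁻¹ = _
      group
  obtain ⟨y, hy, rfl⟩ := hK hx
  exact ⟨y.2, hy⟩

end Step

/-- L3, general form -/
theorem torsion_aux (j : ℕ) : ∀ {E ι : Type} (C : ι → FreeGroup E), ExpIndep C →
    ∀ (w : FreeGroup E) (n : ℕ), n ≠ 0 → w ^ n ∈ Subgroup.normalClosure (Set.range C) →
    ∀ {S : Type} [Group S] (f : FreeGroup E →* S), (∀ i, f (C i) = 1) →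
    ∀ m : ℕ, f.range ≤ derivedSeries S m → f w ∈ derivedSeries S (m + j) := by
  induction j with
  | zero => exact fun {E ι} C _ w n _ _ {S} _ f _ m hm => hm ⟨w, rfl⟩
  | succ j ih =>
    intro E ι C h w n hn hw S _ f hf m hm
    have hF : F1 C ≤ (derivedSeries S (m + 1)).comap f := by
      have hN : (derivedSeries S (m + 1)).Normal := derivedSeries_normal _ _
      refine sup_le (Subgroup.normalClosure_le_normal ?_) ?_
      · rintro _ ⟨i, rfl⟩
        change f (C i) ∈ derivedSeries S (m + 1)
        rw [hf]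
        exact one_mem _
      · rw [← Subgroup.map_le_iff_le_comap, commutator_def, Subgroup.map_commutator,
          derivedSeries_succ]
        have h1 : Subgroup.map f ⊤ ≤ derivedSeries S m := by
          rwa [← MonoidHom.range_eq_map]
        exact Subgroup.commutator_mono h1 h1
    have hw1 : w ∈ F1 C := mem_of_pow_mem h hn (Subgroup.mem_sup_left hw)
    obtain ⟨hwn, hwn'⟩ := normalClosure_step C hw
    let f1 : FreeGroup (Y1 C) →* S := (f.comp (F1 C).subtype).comp (e1 C).symm.toMonoidHom
    have hf1 : ∀ y, f1 (e1 C y) = f y.1 := fun y => by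
      change f ((e1 C).symm (e1 C y)).1 = _
      rw [MulEquiv.symm_apply_apply]
    have key := ih (C1 C) (indep_step h) (e1 C ⟨w, hw1⟩) n hn (by
        rw [← map_pow]
        exact hwn') f1 (fun q => by
          rw [C1, hf1]
          change f (sec C q.2 * C q.1 * (sec C q.2)⁻¹) = 1
          rw [map_mul, map_mul, hf, mul_one, map_inv, mul_inv_cancel]) (m + 1) (by
        rintro _ ⟨y, rfl⟩
        exact hF ((e1 C).symm y).2)
    rw [hf1] at key
    rw [show m + (j + 1) = m + 1 + j by omega]
    exact key

/-- B2: Let the exponent vectors of the relators be linearly independent modulo every prime. Then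
torsion elements of the group vanish in every solvable quotient. -/
theorem torsion {E ι : Type} (C : ι → FreeGroup E) (h : ExpIndep C) (w : FreeGroup E) (n : ℕ)
    (hn : n ≠ 0) (hw : w ^ n ∈ Subgroup.normalClosure (Set.range C)) (S : Type) [Group S]
    [Group.IsSolvable S] (f : FreeGroup E →* S) (hf : ∀ i, f (C i) = 1) : f w = 1 := by
  obtain ⟨k, hk⟩ := (inferInstance : Group.IsSolvable S).solvable
  have h1 := torsion_aux k C h w n hn hw f hf 0 (by rw [derivedSeries_zero]; exact le_top)
  rw [zero_add, hk] at h1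
  exact h1

end Vale.Agent.P246.Dis.H514
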